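import Vale.Agent.P218UW.Resc
import Vale.Agent.P218UM.Basic

/-! The Gaussian density at the space-time origin; the dissipation tends to zero. -/

open MeasureTheory Set Filter Topology Metric
open scoped ENNReal NNReal RealInnerProductSpace ContDiff

namespace Vale.Agent.P218UU

open Vale.Agent.P218UA Vale.Agent.P218UW
open Vale.Agent.P218 (WeakTendsto)

variable {w : ℝ → E3 → ℝ} {a A : ℝ}

lemma resc_eq (w : ℝ → E3 → ℝ) (s t : ℝ) : resc w s t = sc (w (s ^ 2 * t)) 0 s := by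
  funext x; simp [resc, sc]

lemma integral_resc {s : ℝ} (hs : 0 < s) (t : ℝ) (ψ : E3 → ℝ) :
    ∫ y, ψ y ∂(ar (resc w s t)) = (s ^ 2)⁻¹ * ∫ y, ψ (s⁻¹ • y) ∂(ar (w (s ^ 2 * t))) := by
  rw [resc_eq, ← integral_sc (x₁ := 0) hs]
  simp only [zero_add, inv_smul_smul₀ hs.ne']

theorem ar_resc (w : ℝ → E3 → ℝ) (s t : ℝ) (hs : 0 < s) :
    ar (resc w s t) = scal (ar (w (s ^ 2 * t))) s⁻¹ := by
  have h := congrArg (Measure.map fun x : E3 => s⁻¹ • x)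
    (map_ar_sc (x₁ := 0) hs (w (s ^ 2 * t)))
  rw [Measure.map_map (by fun_prop) (aff 0 hs.ne').measurable, Measure.map_smul,
    show ((fun x : E3 => s⁻¹ • x) ∘ aff 0 hs.ne') = id from funext fun x => by
      simp [aff_apply, inv_smul_smul₀ hs.ne'], Measure.map_id] at h
  rw [resc_eq, h, scal, inv_pow]

lemma tendsto_time {s : ℕ → ℝ} (hs : ∀ i, 0 < s i) (h0 : Tendsto s atTop (𝓝 0)) {T : ℝ}
    (hT : T < 0) : Tendsto (fun i => s i ^ 2 * T) atTop (𝓝[<] 0) :=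
  tendsto_nhdsWithin_iff.2 ⟨by simpa using (h0.pow 2).mul_const T,
    Eventually.of_forall fun i => mul_neg_of_pos_of_neg (pow_pos (hs i) 2) hT⟩

lemma ev_AR (ha : a < 0) (hw : IsARFlow w (Ioo a 0) A) {s : ℕ → ℝ} (hs : ∀ i, 0 < s i)
    (h0 : Tendsto s atTop (𝓝 0)) {t : ℕ → ℝ} {t' : ℝ} (ht' : t' < 0)
    (ht : Tendsto t atTop (𝓝 t')) : ∀ᶠ i in atTop, AR (ar (resc w (s i) (t i))) A := by
  have h1 : Tendsto (fun i => s i ^ 2 * t i) atTop (𝓝 0) := by simpa using (h0.pow 2).mul ht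
  filter_upwards [h1.eventually (lt_mem_nhds ha), ht.eventually (gt_mem_nhds ht')] with i a b
  rw [resc_eq]
  exact AR_sc (hs i) (hw.ratio _ ⟨a, mul_neg_of_pos_of_neg (pow_pos (hs i) 2) b⟩)

/-- the Gaussian density ratio centred at the space-time origin -/
noncomputable def th (w : ℝ → E3 → ℝ) (t : ℝ) : ℝ := gd (ar (w t)) 0 √(0 - t)

lemma th_nonneg (t : ℝ) : 0 ≤ th w t :=
  div_nonneg (integral_nonneg fun _ => (Real.exp_pos _).le) (by positivity)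

lemma exists_th (hM : Mono) (ha : a < 0) (hw : IsARFlow w (Ioo a 0) A) : ∃ θ, 0 ≤ θ ∧
    (∀ t ∈ Ioo a 0, θ ≤ th w t) ∧ Tendsto (th w) (𝓝[<] 0) (𝓝 θ) := by
  have hb : BddBelow (th w '' Ioo a 0) := ⟨0, by rintro _ ⟨t, -, rfl⟩; exact th_nonneg t⟩
  refine ⟨_, Real.sInf_nonneg (by rintro _ ⟨t, -, rfl⟩; exact th_nonneg t),
    fun t ht => csInf_le hb ⟨t, ht, rfl⟩,
    AntitoneOn.tendsto_nhdsWithin_Ioo_left (nonempty_Ioo.2 ha) (fun t₁ h₁ t₂ h₂ h => ?_) hb⟩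
  exact (ENNReal.ofReal_le_ofReal_iff (th_nonneg _)).1
    (le_self_add.trans (hM.mono w _ A hw 0 0 t₁ t₂ h₁ h₂ h h₂.2))

/-- the field `diss` of `Tan` -/
theorem tan_diss (hM : Mono) : ∀ w a A, a < 0 → IsARFlow w (Ioo a 0) A →
    Tendsto (fun b => ∫⁻ t in Ioo b 0, dis w 0 0 t) (𝓝[<] 0) (𝓝 0) := by
  intro w a A ha hw
  obtain ⟨θ, h0, h1, h2⟩ := exists_th hM ha hw
  have h3 : Tendsto (fun b => ENNReal.ofReal (th w b - θ)) (𝓝[<] 0) (𝓝 0) := by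
    simpa using ENNReal.tendsto_ofReal (h2.sub_const θ)
  refine tendsto_of_tendsto_of_tendsto_of_le_of_le' tendsto_const_nhds h3
    (Eventually.of_forall fun _ => zero_le) ?_
  filter_upwards [Ioo_mem_nhdsLT ha] with b hb
  obtain ⟨u, hu, hu0, hul⟩ := exists_seq_strictMono_tendsto' hb.2
  have e : Ioo b 0 = ⋃ n, Ioo b (u n) := by
    refine subset_antisymm (fun t ht => ?_) (iUnion_subset fun n => Ioo_subset_Ioo_right (hu0 n).2.le)
    obtain ⟨n, hn⟩ := (hul.eventually (lt_mem_nhds ht.2)).exists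
    exact mem_iUnion.2 ⟨n, ht.1, hn⟩
  rw [e, setLIntegral_iUnion_of_directed _ (Monotone.directed_le fun m n h =>
    Ioo_subset_Ioo_right (hu.monotone h))]
  refine iSup_le fun n => ?_
  have hn : u n ∈ Ioo a 0 := ⟨hb.1.trans (hu0 n).1, (hu0 n).2⟩
  rw [ENNReal.ofReal_sub _ h0]
  exact ENNReal.le_sub_of_add_le_left ENNReal.ofReal_ne_top
    (le_trans (add_le_add_left (ENNReal.ofReal_le_ofReal (h1 _ hn)) _)
      (hM.mono w _ A hw 0 0 b (u n) hb hn (hu0 n).1.le hn.2))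

/-- the field `dens` of `Tan`, from the fields `ratio` and `gd_lim` -/
theorem tan_dens (hM : Mono)
    (hr : ∀ w a A, a < 0 → IsARFlow w (Ioo a 0) A → ∀ s ν, TanSeq w s ν → AR ν A)
    (hg : ∀ (μ : ℕ → Measure E3) (ν : Measure E3) (A : ℝ), (∀ᶠ i in atTop, AR (μ i) A) → AR ν A →
      WeakTendsto μ ν → ∀ R r₁ r₂ ε : ℝ, 0 < r₁ → 0 < ε → ∀ᶠ i in atTop, ∀ x : E3, ‖x‖ ≤ R →
        ∀ r ∈ Icc r₁ r₂, |gd (μ i) x r - gd ν x r| ≤ ε ∧ |mk (μ i) x r - mk ν x r| ≤ ε) :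
    ∀ w a A, a < 0 → IsARFlow w (Ioo a 0) A → ∀ s ν s' ν', TanSeq w s ν → TanSeq w s' ν' →
      gd ν 0 1 = gd ν' 0 1 := by
  intro w a A ha hw
  obtain ⟨θ, -, -, h2⟩ := exists_th hM ha hw
  have key : ∀ s ν, TanSeq w s ν → gd ν 0 1 = θ := fun s ν h => by
    refine tendsto_nhds_unique ?_ (h2.comp (tendsto_time h.pos h.lim neg_one_lt_zero))
    refine Metric.tendsto_nhds.2 fun ε hε => ?_
    filter_upwards [hg _ ν A (ev_AR ha hw h.pos h.lim neg_one_lt_zero tendsto_const_nhds)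
      (hr w a A ha hw s ν h) h.weak 0 1 1 (ε / 2) one_pos (half_pos hε)] with i hi
    have h3 := (hi 0 (by simp) 1 ⟨le_rfl, le_rfl⟩).1
    rw [resc_eq, gd_sc (h.pos i), smul_zero, add_zero, mul_one] at h3
    rw [Function.comp_apply, th, show 0 - s i ^ 2 * (-1) = s i ^ 2 by ring,
      Real.sqrt_sq (h.pos i).le, Real.dist_eq]
    linarith
  intro s ν s' ν' h h'
  rw [key s ν h, key s' ν' h']

end Vale.Agent.P218UU
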