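import Vale.Agent.P218UU.Weak
import Vale.Agent.P218UU.Diss

/-! Parabolic rescalings about the origin; compactness. -/

open MeasureTheory Set Filter Topology Metric
open scoped ENNReal NNReal RealInnerProductSpace ContDiff

namespace Vale.Agent.P218UU

open Vale.Agent.P218UA Vale.Agent.P218UW
open Vale.Agent.P218 (WeakTendsto)
open Vale.Agent.P218.H63 (lap hessSq)

variable {w : ℝ → E3 → ℝ} {a A C s : ℝ}

lemma resc_eq_rs (w : ℝ → E3 → ℝ) (s : ℝ) : resc w s = rs w 0 0 s := by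
  ext t x
  simp [resc, rs, sc]

lemma mem_resc (hs : 0 < s) {t : ℝ} : s ^ 2 * t ∈ Ioo a 0 ↔ t ∈ Ioo (a / s ^ 2) 0 := by
  have h : 0 < s ^ 2 := by positivity
  rw [mem_Ioo, mem_Ioo, div_lt_iff₀ h, mul_comm t]
  exact and_congr_right fun _ => ⟨fun h1 => neg_of_mul_neg_right h1 h.le,
    fun h1 => mul_neg_of_pos_of_neg h h1⟩

theorem isARFlow_resc (h : IsARFlow w (Ioo a 0) A) (hs : 0 < s) :
    IsARFlow (resc w s) (Ioo (a / s ^ 2) 0) A := by
  have e : (fun t => 0 + s ^ 2 * t) ⁻¹' Ioo a 0 = Ioo (a / s ^ 2) 0 := by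
    ext t
    rw [mem_preimage, zero_add, mem_resc hs]
  rw [resc_eq_rs, ← e]
  exact isARFlow_rs h 0 0 hs

lemma setIntegral_sc {f : E3 → ℝ} {x₁ : E3} (hs : 0 < s) (g : E3 → ℝ) (z : E3) (r : ℝ) :
    ∫ y in ball z r, s ^ 2 * g (x₁ + s • y) ∂(ar (sc f x₁ s))
      = ∫ y in ball (x₁ + s • z) (s * r), g y ∂(ar f) := by
  have h := integral_sc (x₁ := x₁) hs f ((ball (x₁ + s • z) (s * r)).indicator g)
  have e : ∀ y, (ball (x₁ + s • z) (s * r)).indicator g (x₁ + s • y)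
      = (ball z r).indicator (fun y => g (x₁ + s • y)) y := fun y => by
    have : x₁ + s • y ∈ ball (x₁ + s • z) (s * r) ↔ y ∈ ball z r := by
      rw [mem_ball_iff_norm, mem_ball_iff_norm, norm_aff_sub hs, mul_lt_mul_iff_right₀ hs]
    by_cases hy : y ∈ ball z r
    · rw [indicator_of_mem hy, indicator_of_mem (this.2 hy)]
    · rw [indicator_of_notMem hy, indicator_of_notMem (mt this.1 hy)]
  simp only [e] at h
  rw [integral_indicator measurableSet_ball, integral_indicator measurableSet_ball] at h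
  rw [integral_const_mul, h]
  field_simp

lemma LGB_sc {f : E3 → ℝ} (hf : ContDiff ℝ 2 f) (h : LGB f C) (x₁ : E3) (hs : 0 < s) :
    LGB (sc f x₁ s) C := by
  intro z r hr
  have h1 := h (x₁ + s • z) (s * r) (by positivity)
  rw [← setIntegral_sc hs, show 2 * (s * r) = s * (2 * r) by ring, ← setIntegral_sc hs] at h1
  simpa only [hessSq_sc hs.ne' hf, lap_sc hs.ne' hf, mul_pow] using h1

theorem resc_good (h : IsGood w (Ioo a 0) A C) (hs : 0 < s) :
    IsGood (resc w s) (Ioo (a / s ^ 2) 0) A C := by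
  refine ⟨isARFlow_resc h.toIsARFlow hs, h.one_le', fun t ht => ?_⟩
  have ht' := (mem_resc hs).2 ht
  rw [resc_eq]
  exact LGB_sc ((P218UX.slice h.toIsFlow ht').smooth.of_le (by norm_cast)) (h.lgb _ ht') 0 hs

theorem compact (ha : a < 0) (hw : IsARFlow w (Ioo a 0) A) (s : ℕ → ℝ) (hs : ∀ i, 0 < s i)
    (h : Tendsto s atTop (𝓝 0)) :
    ∃ (φ : ℕ → ℕ) (ν : Measure E3), StrictMono φ ∧ TanSeq w (s ∘ φ) ν := by
  obtain ⟨N, hN⟩ := eventually_atTop.1
    (ev_AR ha hw hs h (t := fun _ => -1) neg_one_lt_zero tendsto_const_nhds)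
  obtain ⟨φ, ν, hφ, hν, h1⟩ := exists_subseq (μ := fun i => ar (resc w (s (i + N)) (-1)))
    fun i => hN _ (Nat.le_add_left _ _)
  have hφ' : StrictMono fun i => φ i + N := fun i j hij => Nat.add_lt_add_right (hφ hij) N
  exact ⟨_, ν, hφ', fun _ => hs _, h.comp hφ'.tendsto_atTop, hν, h1⟩

theorem ratio (ha : a < 0) (hw : IsARFlow w (Ioo a 0) A) {s : ℕ → ℝ} {ν : Measure E3}
    (h : TanSeq w s ν) : AR ν A := by
  have := h.locFin
  exact AR_lim (ev_AR ha hw h.pos h.lim (t := fun _ => -1) neg_one_lt_zero tendsto_const_nhds)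
    h.weak

/-- the structure `Tan` from its field `slow` -/
theorem tan_of_slow (hM : Mono) (hs : ∀ w a A, a < 0 → IsARFlow w (Ioo a 0) A → ∀ s ν,
    TanSeq w s ν → ∀ (t : ℕ → ℝ) (t' : ℝ), t' < 0 → Tendsto t atTop (𝓝 t') →
    WeakTendsto (fun i => ar (resc w (s i) (t i))) (scal ν √(-t'))) : Tan := by
  have hg : ∀ (μ : ℕ → Measure E3) (ν : Measure E3) (A : ℝ), (∀ᶠ i in atTop, AR (μ i) A) → AR ν A →
      WeakTendsto μ ν → ∀ R r₁ r₂ ε : ℝ, 0 < r₁ → 0 < ε → ∀ᶠ i in atTop, ∀ x : E3, ‖x‖ ≤ R →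
        ∀ r ∈ Icc r₁ r₂, |gd (μ i) x r - gd ν x r| ≤ ε ∧ |mk (μ i) x r - mk ν x r| ≤ ε := by
    intro μ ν A h1 h2 h3 R r₁ r₂ ε h4 h5
    filter_upwards [gd_lim hM h1 h2 h3 R r₁ r₂ ε h4 h5, mk_lim h1 h2 h3 R r₁ r₂ ε h4 h5]
      with i h6 h7 x hx r hr using ⟨h6 x hx r hr, h7 x hx r hr⟩
  exact ⟨fun _ _ _ _ h _ hs => resc_good h hs, ar_resc, fun _ _ _ => compact, hs,
    fun _ _ _ ha hw _ _ => ratio ha hw, tan_diss hM,
    tan_dens hM (fun _ _ _ ha hw _ _ => ratio ha hw) hg, hg, fun _ _ _ => near_lim⟩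

end Vale.Agent.P218UU
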