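import Vale.Agent.P218UU.Resc

/-! The rescaled time slices move slowly when the dissipation is small. -/

open MeasureTheory Set Filter Topology Metric
open scoped ENNReal NNReal RealInnerProductSpace ContDiff

namespace Vale.Agent.P218UU

open Vale.Agent.P218UA Vale.Agent.P218UW Vale.Agent.P218UX Vale.Agent.P218UM
open Vale.Agent.P218 (WeakTendsto)
open Vale.Agent.P218.H63 (lap)
open Vale.Agent.P218GA (inner_grad continuous_gradient continuous_lap)

lemma enorm_sub_le {F : ℝ → ℝ} {g : ℝ → ℝ≥0∞} {b b' : ℝ}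
    (h : ∀ t ∈ Icc b b', DifferentiableAt ℝ F t ∧ ‖deriv F t‖ₑ ≤ g t) {t₁ t₂ : ℝ}
    (h₁ : t₁ ∈ Icc b b') (h₂ : t₂ ∈ Icc b b') : ‖F t₂ - F t₁‖ₑ ≤ ∫⁻ t in Icc b b', g t := by
  have h3 : ∫⁻ t in Icc b b', ‖deriv F t‖ₑ ≤ ∫⁻ t in Icc b b', g t :=
    setLIntegral_mono' measurableSet_Icc fun t ht => (h t ht).2
  by_cases hg : ∫⁻ t in Icc b b', g t = ⊤
  · rw [hg]; exact le_top
  have h4 : IntegrableOn (deriv F) (Icc b b') :=
    ⟨(measurable_deriv F).aestronglyMeasurable, h3.trans_lt (lt_top_iff_ne_top.2 hg)⟩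
  have h5 := uIcc_subset_Icc h₁ h₂
  rw [← intervalIntegral.integral_deriv_eq_sub (fun t ht => (h t (h5 ht)).1)
    (h4.mono_set h5).intervalIntegrable, ← ofReal_norm, intervalIntegral.norm_intervalIntegral_eq,
    ofReal_norm]
  exact (enorm_integral_le_lintegral_enorm _).trans
    ((lintegral_mono_set (uIoc_subset_uIcc.trans h5)).trans h3)

/-- the self-similarly shrinking test function -/
noncomputable def ff (φ : E3 → ℝ) (t : ℝ) (x : E3) : ℝ := φ ((√(-t))⁻¹ • x) / (-t)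

variable {φ : E3 → ℝ} {t R M : ℝ} {x : E3} {w : ℝ → E3 → ℝ} {a A : ℝ}

lemma contDiff_ff (hφ : ContDiff ℝ 1 φ) (t : ℝ) : ContDiff ℝ 1 (ff φ t) :=
  (hφ.comp (contDiff_id.const_smul _)).div_const _

lemma grad_ff (hφ : ContDiff ℝ 1 φ) (v : E3) :
    ⟪gradient (ff φ t) x, v⟫ = (√(-t))⁻¹ * fderiv ℝ φ ((√(-t))⁻¹ • x) v / (-t) := by
  have h := ((hφ.differentiable one_ne_zero _).hasFDerivAt.comp x
    ((hasFDerivAt_id x).const_smul (√(-t))⁻¹)).mul_const (-t)⁻¹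
  rw [inner_grad, show ff φ t = fun y => (φ ∘ ((√(-t))⁻¹ • id)) y * (-t)⁻¹ from
    funext fun y => div_eq_mul_inv _ _, h.fderiv]
  simp
  ring

lemma deriv_ff (hφ : ContDiff ℝ 1 φ) (ht : t < 0) :
    deriv (fun s => ff φ s x) t = (2 * ff φ t x + ⟪gradient (ff φ t) x, x⟫) / (2 * -t) := by
  have h0 : 0 < -t := neg_pos.2 ht
  have hc := Real.sqrt_pos.2 h0
  have h1 := ((hasDerivAt_neg t).sqrt h0.ne').fun_inv hc.ne'
  have h2 := (((hφ.differentiable one_ne_zero _).hasFDerivAt.comp_hasDerivAt t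
    (h1.smul_const x)).fun_div (hasDerivAt_neg t) h0.ne').deriv
  rw [grad_ff hφ]
  refine h2.trans ?_
  have h3 := ht.ne
  simp only [map_smul, smul_eq_mul, Function.comp_apply, ff, Real.sq_sqrt h0.le]
  field_simp
  ring

lemma ff_zero (h0 : ∀ y, R < ‖y‖ → φ y = 0 ∧ fderiv ℝ φ y = 0) (ht : t < 0)
    (hx : R * √(-t) < ‖x‖) : φ ((√(-t))⁻¹ • x) = 0 ∧ fderiv ℝ φ ((√(-t))⁻¹ • x) = 0 := by
  have hc := Real.sqrt_pos.2 (neg_pos.2 ht)
  refine h0 _ ?_
  rwa [norm_smul, norm_inv, Real.norm_of_nonneg hc.le, ← div_eq_inv_mul, lt_div_iff₀ hc]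

lemma hasDerivAt_ff (hw : IsFlow w (Ioo a 0)) (hφ : ContDiff ℝ 1 φ) (hR : 0 ≤ R)
    (h0 : ∀ y, R < ‖y‖ → φ y = 0 ∧ fderiv ℝ φ y = 0) (ht : t ∈ Ioo a 0) :
    HasDerivAt (fun s => ∫ x, ff φ s x ∂(ar (w s)))
      (∫ x, -((lap (w t) x - ⟪x, gradient (w t) x⟫ / (2 * -t)) *
        (⟪gradient (ff φ t) x, gradient (w t) x⟫ + lap (w t) x * ff φ t x)) ∂(ar (w t))) t := by
  have hz : ∀ s ∈ Ioo a 0, ∀ x, x ∉ closedBall (0 : E3) (R * √(-a)) → ff φ s x = 0 := by
    intro s hs x hx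
    rw [mem_closedBall_zero_iff, not_le] at hx
    rw [ff, (ff_zero h0 hs.2 (lt_of_le_of_lt (by gcongr; exact hs.1.le) hx)).1, zero_div]
  obtain ⟨i1, h1⟩ := ddt' hw isOpen_Ioo subset_rfl (f := ff φ) (fun p hp => by
    have hp0 : -p.1 ≠ 0 := (neg_pos.2 hp.1.2).ne'
    exact ((hφ.contDiffAt.comp p (((contDiffAt_fst.neg.sqrt hp0).inv
      (Real.sqrt_pos.2 (neg_pos.2 hp.1.2)).ne').smul contDiffAt_snd)).div contDiffAt_fst.neg
      hp0).contDiffWithinAt) (isCompact_closedBall 0 _) hz ht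
  have hS := slice hw ht
  have := locFin hS
  have hf := contDiff_ff hφ t
  have hX : ContDiff ℝ 1 fun x : E3 => ff φ t x • x := hf.smul contDiff_id
  have hc : HasCompactSupport fun x : E3 => ff φ t x • x :=
    HasCompactSupport.intro (isCompact_closedBall 0 _) fun x hx => by rw [hz t ht x hx, zero_smul]
  have g1 := continuous_gradient (hS.smooth.of_le (by norm_cast))
  have g2 := continuous_lap (hS.smooth.of_le (by norm_cast))
  have i2 : Integrable (fun x => trT (gradient (w t) x) (fderiv ℝ (fun x : E3 => ff φ t x • x) x))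
      (ar (w t)) := (continuous_trT g1 hX).integrable_of_hasCompactSupport
    ((hc.fderiv ℝ).mono fun x hx h => hx (by simp only [h, trT_zero]))
  have i3 : Integrable (fun x => lap (w t) x * ⟪ff φ t x • x, gradient (w t) x⟫) (ar (w t)) :=
    (g2.mul (hX.continuous.inner g1)).integrable_of_hasCompactSupport
      (hc.mono fun x hx h => hx (by
        change lap (w t) x * ⟪(fun x => ff φ t x • x) x, _⟫ = 0
        rw [h, inner_zero_left, mul_zero]))
  refine h1.congr_deriv ?_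
  rw [← sub_zero (∫ x, _ ∂(ar (w t))), ← mul_zero (2 * -t)⁻¹, ← sub_eq_zero.2 (firstVar hS hX hc),
    ← integral_sub i2 i3, ← integral_const_mul, ← integral_sub i1 ((i2.sub' i3).const_mul _)]
  refine integral_congr_ae ?_
  filter_upwards [ae_ar hS.smooth.continuous] with x hx
  have h2 : trT (gradient (w t) x) (fderiv ℝ (fun x : E3 => x) x) = 2 := by
    rw [fderiv_fun_id, trT, ContinuousLinearMap.id_apply, real_inner_self_eq_norm_sq,
      (hS.eik x hx).self_of_nhds]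
    simp
    norm_num
  rw [trT_smul (hf.differentiable one_ne_zero x) differentiableAt_fun_id, h2, deriv_ff hφ ht.2,
    real_inner_smul_left]
  ring

lemma pointwise_le {S g f H u c M R ε : ℝ} (hc : 0 < c) (hε : 0 < ε)
    (hg : |g| ≤ c⁻¹ * M / c ^ 2) (hf : |f| ≤ M / c ^ 2) (hu : |u| ≤ R * c)
    (hS : S = H - u / (2 * c ^ 2)) : |-(S * (g + H * f))|
      ≤ ε / c ^ 4 + (M + (M * (1 + R / 2)) ^ 2 / (4 * ε)) * (S ^ 2 / c ^ 2) := by
  have h1 : |g + H * f| ≤ M * (1 + R / 2) / c ^ 3 + |S| * (M / c ^ 2) := by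
    have h2 : |u / (2 * c ^ 2) * f| ≤ R * c / (2 * c ^ 2) * (M / c ^ 2) := by
      rw [abs_mul, abs_div, abs_of_pos (show 0 < 2 * c ^ 2 by positivity)]
      have := (abs_nonneg _).trans hu
      gcongr
    have h3 : |S * f| ≤ |S| * (M / c ^ 2) := by rw [abs_mul]; gcongr
    have h4 : c⁻¹ * M / c ^ 2 + R * c / (2 * c ^ 2) * (M / c ^ 2) = M * (1 + R / 2) / c ^ 3 := by
      field_simp
    rw [show g + H * f = g + u / (2 * c ^ 2) * f + S * f by rw [hS]; ring]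
    linarith [abs_add_three g (u / (2 * c ^ 2) * f) (S * f)]
  rw [abs_neg, abs_mul]
  refine (mul_le_mul_of_nonneg_left h1 (abs_nonneg _)).trans (sub_nonneg.1 ?_)
  rw [← sq_abs S, show ε / c ^ 4 + (M + (M * (1 + R / 2)) ^ 2 / (4 * ε)) * (|S| ^ 2 / c ^ 2)
    - |S| * (M * (1 + R / 2) / c ^ 3 + |S| * (M / c ^ 2))
    = (2 * ε - M * (1 + R / 2) * |S| * c) ^ 2 / (4 * ε * c ^ 4) by field_simp; ring]
  positivity

lemma deriv_le (hw : IsARFlow w (Ioo a 0) A) (hφ : ContDiff ℝ 1 φ) (hR : 0 < R)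
    (h0 : ∀ y, R < ‖y‖ → φ y = 0 ∧ fderiv ℝ φ y = 0) (hM : ∀ y, |φ y| ≤ M ∧ ‖fderiv ℝ φ y‖ ≤ M)
    {ε : ℝ} (hε : 0 < ε) (ht : t ∈ Ioo a 0) :
    ‖deriv (fun s => ∫ x, ff φ s x ∂(ar (w s))) t‖ₑ ≤ ENNReal.ofReal (ε * A * R ^ 2 / -t)
      + ENNReal.ofReal ((M + (M * (1 + R / 2)) ^ 2 / (4 * ε)) * (4 * Real.pi * Real.exp (R ^ 2 / 4)))
        * dis w 0 0 t := by
  have hτ : 0 < -t := neg_pos.2 ht.2
  have hc := Real.sqrt_pos.2 hτ
  have hc2 := Real.sq_sqrt hτ.le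
  have M0 : 0 ≤ M := (abs_nonneg _).trans (hM 0).1
  have hS := slice hw.toIsFlow ht
  rw [(hasDerivAt_ff hw.toIsFlow hφ hR.le h0 ht).deriv, dis,
    ← lintegral_const_mul' _ _ ENNReal.ofReal_ne_top]
  refine (enorm_integral_le_lintegral_enorm _).trans (le_trans (lintegral_mono_ae
    (g := fun x => (closedBall (0 : E3) (R * √(-t))).indicator
      (fun _ => ENNReal.ofReal (ε / √(-t) ^ 4)) x + _) ?_) ((lintegral_add_left
      (measurable_const.indicator measurableSet_closedBall) _).trans_le (add_le_add_left ?_ _)))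
  · filter_upwards [ae_ar hS.smooth.continuous] with x hx
    have hn := (hS.eik x hx).self_of_nhds
    by_cases hx' : x ∈ closedBall (0 : E3) (R * √(-t))
    · rw [indicator_of_mem hx', ← ENNReal.ofReal_mul (by positivity),
        ← ENNReal.ofReal_add (by positivity) (by rw [zero_sub]; positivity), ← ofReal_norm]
      rw [mem_closedBall_zero_iff] at hx'
      refine ENNReal.ofReal_le_ofReal ((pointwise_le (R := R) (M := M)
        (u := ⟪x, gradient (w t) x⟫) hc hε ?_ ?_ ?_ (by rw [hc2])).trans ?_)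
      · rw [grad_ff hφ, hc2, abs_div, abs_mul, abs_of_pos hτ, abs_of_pos (inv_pos.2 hc)]
        gcongr
        simpa [hn] using (fderiv ℝ φ _).le_of_opNorm_le (hM _).2 (gradient (w t) x)
      · rw [ff, hc2, abs_div, abs_of_pos hτ]
        gcongr
        exact (hM _).1
      · simpa [hn] using (abs_real_inner_le_norm x (gradient (w t) x)).trans
          (mul_le_mul_of_nonneg_right hx' (norm_nonneg _))
      · rw [mul_assoc (M + _), zero_sub, sub_zero, hc2]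
        gcongr
        have h3 : 1 ≤ Real.exp (R ^ 2 / 4) * Real.exp (-‖x‖ ^ 2 / (4 * -t)) := by
          rw [← Real.exp_add, Real.one_le_exp_iff, neg_div, ← sub_eq_add_neg, sub_nonneg,
            div_le_div_iff₀ (by positivity) (by positivity)]
          have : ‖x‖ ^ 2 ≤ (R * √(-t)) ^ 2 := by gcongr
          rw [mul_pow, hc2] at this
          linarith
        refine (le_mul_of_one_le_right (by positivity) h3).trans (le_of_eq ?_)
        field_simp
    · rw [mem_closedBall_zero_iff, not_le] at hx'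
      obtain ⟨k1, k2⟩ := ff_zero h0 ht.2 hx'
      simp [grad_ff hφ, ff, k1, k2]
  · rw [lintegral_indicator_const measurableSet_closedBall]
    refine (mul_le_mul_right (hw.ratio t ht 0 _ (by positivity)) _).trans (le_of_eq ?_)
    rw [← ENNReal.ofReal_mul (by positivity), mul_pow, show √(-t) ^ 4 = (√(-t) ^ 2) ^ 2 by ring, hc2]
    congr 1
    field_simp

lemma tendsto_ff (hM : Mono) (ha : a < 0) (hw : IsARFlow w (Ioo a 0) A) (hφ : ContDiff ℝ 1 φ)
    (hc : HasCompactSupport φ) {s : ℕ → ℝ} (hs : ∀ i, 0 < s i) (h0 : Tendsto s atTop (𝓝 0))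
    {t : ℕ → ℝ} {t' : ℝ} (ht' : t' < 0) (ht : Tendsto t atTop (𝓝 t')) :
    Tendsto (fun i => ∫ x, ff φ (s i ^ 2 * t i) x ∂(ar (w (s i ^ 2 * t i)))
      - ∫ x, ff φ (s i ^ 2 * (-1)) x ∂(ar (w (s i ^ 2 * (-1))))) atTop (𝓝 0) := by
  obtain ⟨R, hR, hR'⟩ := hc.isCompact.isBounded.subset_closedBall_lt 0 0
  have k0 : ∀ y, R < ‖y‖ → φ y = 0 ∧ fderiv ℝ φ y = 0 := fun y hy => by
    have : y ∉ tsupport φ := fun h => hy.not_ge (mem_closedBall_zero_iff.1 (hR' h))
    exact ⟨image_eq_zero_of_notMem_tsupport this,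
      Function.notMem_support.1 fun h => this (support_fderiv_subset ℝ h)⟩
  obtain ⟨M₁, hM₁⟩ := hφ.continuous.bounded_above_of_compact_support hc
  obtain ⟨M₂, hM₂⟩ := (hφ.continuous_fderiv one_ne_zero).bounded_above_of_compact_support
    (hc.fderiv ℝ)
  have kM : ∀ y, |φ y| ≤ max M₁ M₂ ∧ ‖fderiv ℝ φ y‖ ≤ max M₁ M₂ := fun y =>
    ⟨(hM₁ y).trans (le_max_left _ _), (hM₂ y).trans (le_max_right _ _)⟩
  obtain ⟨T₁, T₂, a1, a2, a3, a4, a5⟩ : ∃ T₁ T₂ : ℝ, T₁ < -1 ∧ T₁ < t' ∧ -1 < T₂ ∧ t' < T₂ ∧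
      T₂ < 0 := ⟨min (-1) t' - 1, max (-1) t' / 2, by linarith [min_le_left (-1) t'],
    by linarith [min_le_right (-1) t'],
    by linarith [le_max_left (-1) t', max_lt neg_one_lt_zero ht'],
    by linarith [le_max_right (-1) t', max_lt neg_one_lt_zero ht'],
    by linarith [max_lt neg_one_lt_zero ht']⟩
  have hA : 0 < A := zero_lt_one.trans_le hw.one_le
  have hT : 0 < T₂ - T₁ := by linarith
  have hT₂ : 0 < -T₂ := by linarith
  have hlim := tendsto_time hs h0 (show 2 * T₁ < 0 by linarith)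
  rw [tendsto_zero_iff_enorm_tendsto_zero, ENNReal.tendsto_nhds_zero]
  intro δ hδ
  obtain ⟨η, -, hη, hηδ⟩ := ENNReal.lt_iff_exists_real_btwn.1 (ENNReal.half_pos hδ.ne')
  rw [ENNReal.ofReal_pos] at hη
  obtain ⟨ε, hε⟩ : ∃ ε, ε = η * -T₂ / (A * R ^ 2 * (T₂ - T₁)) := ⟨_, rfl⟩
  have hε0 : 0 < ε := by rw [hε]; positivity
  filter_upwards [(ENNReal.Tendsto.const_mul (a := ENNReal.ofReal ((max M₁ M₂ + (max M₁ M₂
    * (1 + R / 2)) ^ 2 / (4 * ε)) * (4 * Real.pi * Real.exp (R ^ 2 / 4))))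
    ((tan_diss hM w a A ha hw).comp hlim) (Or.inr ENNReal.ofReal_ne_top)).eventually
    (gt_mem_nhds ((mul_zero _).trans_lt (ENNReal.half_pos hδ.ne'))),
    hlim.eventually (Ioo_mem_nhdsLT ha),
    ht.eventually (Icc_mem_nhds a2 a4)] with i b1 b2 b3
  have s2 := pow_pos (hs i) 2
  have b4 : Icc (s i ^ 2 * T₁) (s i ^ 2 * T₂) ⊆ Ioo (s i ^ 2 * (2 * T₁)) 0 :=
    Icc_subset_Ioo (by gcongr; linarith) (mul_neg_of_pos_of_neg s2 a5)
  have b5 := b4.trans (Ioo_subset_Ioo_left b2.1.le)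
  refine (enorm_sub_le (F := fun s => ∫ x, ff φ s x ∂(ar (w s)))
    (g := fun t => ENNReal.ofReal (ε * A * R ^ 2 / (s i ^ 2 * -T₂)) + _ * dis w 0 0 t)
    (fun t ht => ⟨(hasDerivAt_ff hw.toIsFlow hφ hR.le k0 (b5 ht)).differentiableAt,
      (deriv_le hw hφ hR k0 kM hε0 (b5 ht)).trans (add_le_add_left (ENNReal.ofReal_le_ofReal ?_) _)⟩)
    (t₁ := s i ^ 2 * (-1)) (t₂ := s i ^ 2 * t i) ⟨by gcongr, by gcongr⟩
    ⟨by gcongr; exact b3.1, by gcongr; exact b3.2⟩).trans ?_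
  · gcongr
    linarith [ht.2]
  · rw [lintegral_add_left measurable_const, setLIntegral_const, Real.volume_Icc,
      ← ENNReal.ofReal_mul (by positivity), lintegral_const_mul' _ _ ENNReal.ofReal_ne_top,
      ← ENNReal.add_halves δ]
    refine add_le_add (le_trans (le_of_eq ?_) hηδ.le)
      ((mul_le_mul_right (lintegral_mono_set b4) _).trans b1.le)
    have := a5.ne
    have := (hs i).ne'
    rw [hε, ← mul_sub]
    congr 1
    field_simp

lemma abs_integral_sub_le {μ : Measure E3} [IsLocallyFiniteMeasure μ] {f g : E3 → ℝ}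
    (hf : Continuous f) (hg : Continuous g) {R ε : ℝ} (f0 : ∀ y, y ∉ closedBall 0 R → f y = 0)
    (g0 : ∀ y, y ∉ closedBall 0 R → g y = 0) (h : ∀ y, |f y - g y| ≤ ε) :
    |∫ y, f y ∂μ - ∫ y, g y ∂μ| ≤ ε * μ.real (closedBall 0 R) := by
  rw [← integral_sub
    (hf.integrable_of_hasCompactSupport (.intro (isCompact_closedBall 0 R) f0))
    (hg.integrable_of_hasCompactSupport (.intro (isCompact_closedBall 0 R) g0))]
  exact abs_integral_le_ball (fun y hy => by rw [f0 y hy, g0 y hy, sub_zero]) h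

lemma weak_of_tests {μ : ℕ → Measure E3} {ν : Measure E3} [IsLocallyFiniteMeasure ν] (hA : 0 ≤ A)
    (hμ : ∀ᶠ i in atTop, AR (μ i) A) {c : ℕ → ℝ} {c' : ℝ} (hc' : 0 < c')
    (hc : Tendsto c atTop (𝓝 c')) (h : ∀ φ : E3 → ℝ, ContDiff ℝ 1 φ → HasCompactSupport φ →
      Tendsto (fun i => ∫ x, φ ((c i)⁻¹ • x) ∂(μ i)) atTop (𝓝 (c' ^ 2 * ∫ x, φ x ∂ν))) :
    WeakTendsto μ (scal ν c') := by
  intro ψ hψ hψc
  rw [scal, integral_smul_measure, (measurableEmbedding_const_smul₀ hc'.ne').integral_map,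
    ENNReal.toReal_ofReal (sq_nonneg c'), smul_eq_mul]
  obtain ⟨R, hR, hR'⟩ := hψc.isCompact.isBounded.subset_closedBall_lt 0 0
  have k0 : ∀ y, R < ‖y‖ → ψ y = 0 := fun y hy =>
    image_eq_zero_of_notMem_tsupport fun h => hy.not_ge (mem_closedBall_zero_iff.1 (hR' h))
  refine Metric.tendsto_nhds.2 fun δ hδ => ?_
  have n0 : 0 ≤ ν.real (closedBall 0 (R / c')) := measureReal_nonneg
  obtain ⟨ε, hε, hεδ⟩ := exists_pos_mul_lt hδ
    (1 + 2 * (A * (2 * R) ^ 2) + c' ^ 2 * ν.real (closedBall 0 (R / c')))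
  have hψ' : Continuous fun y : E3 => ψ (c' • y) := by fun_prop
  obtain ⟨φ, hφ, h1, h2⟩ := hψ'.exists_contDiff_approx 1 (ε := fun _ => ε) continuous_const
    fun _ => hε
  have k1 : ∀ y, y ∉ closedBall (0 : E3) (R / c') → ψ (c' • y) = 0 := fun y hy => k0 _ (by
    rwa [mem_closedBall_zero_iff, not_le, div_lt_iff₀' hc', ← Real.norm_of_nonneg hc'.le,
      ← norm_smul] at hy)
  have k2 : ∀ y, y ∉ closedBall (0 : E3) (R / c') → φ y = 0 := fun y hy =>
    Function.notMem_support.1 fun h => h2 h (k1 y hy)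
  have k3 := abs_integral_sub_le (μ := ν) hφ.continuous hψ' k2 k1 fun y => (h1 y).le
  obtain ⟨ρ, hρ, hu⟩ := Metric.uniformContinuous_iff.1
    (hψc.uniformContinuous_of_continuous hψ) ε hε
  have h3 : Tendsto (fun i => c' * (c i)⁻¹) atTop (𝓝 1) := by
    simpa [hc'.ne'] using (hc.inv₀ hc'.ne').const_mul c'
  have h4 : Tendsto (fun i => |1 - c' * (c i)⁻¹| * (2 * R)) atTop (𝓝 0) := by
    simpa using ((h3.const_sub 1).abs).mul_const (2 * R)
  filter_upwards [hμ, h4.eventually (gt_mem_nhds hρ), h3.eventually (lt_mem_nhds one_half_lt_one),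
    Metric.tendsto_nhds.1 (h φ hφ (.intro (isCompact_closedBall 0 _) k2)) ε hε] with i b1 b2 b3 b4
  have := b1.locFin
  have k4 : ∀ y, y ∉ closedBall (0 : E3) (2 * R) → ψ y = 0 ∧ φ ((c i)⁻¹ • y) = 0 := by
    intro y hy
    rw [mem_closedBall_zero_iff, not_le] at hy
    refine ⟨k0 y (by linarith), Function.notMem_support.1 fun h => h2 h (k0 _ ?_)⟩
    rw [smul_smul, norm_smul, Real.norm_of_nonneg (by linarith)]
    nlinarith
  have k5 := abs_integral_sub_le (μ := μ i) (g := fun y => φ ((c i)⁻¹ • y)) (ε := 2 * ε) hψ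
    (hφ.continuous.comp (continuous_const_smul _)) (fun y hy => (k4 y hy).1)
    (fun y hy => (k4 y hy).2) fun y => by
      by_cases hy : y ∈ closedBall (0 : E3) (2 * R)
      · have m1 := hu (a := y) (b := c' • (c i)⁻¹ • y) (by
          rw [dist_eq_norm, smul_smul, ← one_smul ℝ y, smul_smul, mul_one, ← sub_smul, norm_smul]
          exact (mul_le_mul_of_nonneg_left (mem_closedBall_zero_iff.1 hy) (abs_nonneg _)).trans_lt b2)
        have m2 := h1 ((c i)⁻¹ • y)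
        rw [Real.dist_eq] at m1 m2
        linarith [abs_sub_le (ψ y) (ψ (c' • (c i)⁻¹ • y)) (φ ((c i)⁻¹ • y)),
          abs_sub_comm (ψ (c' • (c i)⁻¹ • y)) (φ ((c i)⁻¹ • y))]
      · rw [(k4 y hy).1, (k4 y hy).2, sub_zero, abs_zero]; positivity
  have k6 := mul_le_mul_of_nonneg_left (b1.real_le hA 0 (show 0 < 2 * R by positivity))
    (show 0 ≤ 2 * ε by positivity)
  have k7 := mul_le_mul_of_nonneg_left k3 (sq_nonneg c')
  rw [← abs_of_nonneg (sq_nonneg c'), ← abs_mul, abs_of_nonneg (sq_nonneg c'), mul_sub] at k7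
  rw [Real.dist_eq] at b4 ⊢
  rw [abs_le] at k5 k7
  rw [abs_lt] at b4 ⊢
  constructor <;> linarith [k5.1, k5.2, k7.1, k7.2, b4.1, b4.2]

lemma integral_ff {s : ℝ} (hs : 0 < s) (t : ℝ) :
    ∫ x, ff φ (s ^ 2 * t) x ∂(ar (w (s ^ 2 * t)))
      = (-t)⁻¹ * ∫ x, φ ((√(-t))⁻¹ • x) ∂(ar (resc w s t)) := by
  rw [integral_resc hs, ← integral_const_mul, ← integral_const_mul]
  refine integral_congr_ae (Eventually.of_forall fun x => ?_)
  simp only [ff]
  rw [← mul_neg, Real.sqrt_mul (sq_nonneg s), Real.sqrt_sq hs.le, smul_smul, mul_inv, mul_comm s⁻¹]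
  field_simp

/-- the field `slow` of `Tan` -/
theorem tan_slow (hM : Mono) : ∀ w a A, a < 0 → IsARFlow w (Ioo a 0) A → ∀ s ν, TanSeq w s ν →
    ∀ (t : ℕ → ℝ) (t' : ℝ), t' < 0 → Tendsto t atTop (𝓝 t') →
    WeakTendsto (fun i => ar (resc w (s i) (t i))) (scal ν √(-t')) := by
  intro w a A ha hw s ν h t t' ht' ht
  have := h.locFin
  refine weak_of_tests (zero_le_one.trans hw.one_le) (ev_AR ha hw h.pos h.lim ht' ht)
    (Real.sqrt_pos.2 (neg_pos.2 ht')) ht.neg.sqrt fun φ hφ hc => ?_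
  rw [Real.sq_sqrt (neg_pos.2 ht').le]
  have h1 := ht.neg.mul ((tendsto_ff hM ha hw hφ hc h.pos h.lim ht' ht).add
    (h.weak φ hφ.continuous hc))
  rw [zero_add] at h1
  refine h1.congr' ?_
  filter_upwards [ht.eventually (gt_mem_nhds ht')] with i hi
  rw [integral_ff (h.pos i), integral_ff (h.pos i)]
  simp [hi.ne]

/-- [T0] -/
theorem tan (hM : Mono) : Tan := tan_of_slow hM (tan_slow hM)

end Vale.Agent.P218UU
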