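import Vale.Agent.P218UD.Unif
import Vale.Agent.P218.Weak
import Mathlib.Geometry.Manifold.SmoothApprox

/-! Weak convergence of measures with bounded area ratios. -/

open MeasureTheory Set Filter Topology Metric
open scoped ENNReal NNReal RealInnerProductSpace ContDiff

namespace Vale.Agent.P218UU

open Vale.Agent.P218UA
open Vale.Agent.P218 (WeakTendsto)

variable {μ : ℕ → Measure E3} {ν : Measure E3} {A : ℝ}

lemma AR_max {μ : Measure E3} (h : AR μ A) : AR μ (max A 0) := fun x r hr =>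
  (h x r hr).trans (ENNReal.ofReal_le_ofReal
    (mul_le_mul_of_nonneg_right (le_max_left _ _) (sq_nonneg r)))

lemma hcs {f : E3 → ℝ} {ρ : ℝ} (hf : ∀ x, ρ < ‖x‖ → f x = 0) : HasCompactSupport f :=
  HasCompactSupport.intro (isCompact_closedBall 0 ρ) fun x hx =>
    hf x (by simpa using hx)

lemma exists_rad {f : E3 → ℝ} (hf : HasCompactSupport f) :
    ∃ ρ > 0, ∀ x, ρ < ‖x‖ → f x = 0 := by
  obtain ⟨R, hR⟩ := hf.isCompact.isBounded.subset_closedBall 0
  refine ⟨max R 1, lt_max_of_lt_right one_pos, fun x hx =>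
    image_eq_zero_of_notMem_tsupport fun h => ?_⟩
  have := mem_closedBall_zero_iff.1 (hR h)
  linarith [le_max_left R 1]

/-- integrals of close functions are close -/
lemma close {μ : Measure E3} (h : AR μ A) (hA : 0 ≤ A) {f g : E3 → ℝ} {ρ M : ℝ} (hρ : 0 < ρ)
    (hfc : Continuous f) (hgc : Continuous g) (hf : ∀ x, ρ < ‖x‖ → f x = 0)
    (hg : ∀ x, ρ < ‖x‖ → g x = 0) (hM : 0 ≤ M) (hd : ∀ x, ‖x‖ ≤ ρ → |f x - g x| ≤ M) :
    |∫ x, f x ∂μ - ∫ x, g x ∂μ| ≤ M * (A * ρ ^ 2) := by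
  have := h.locFin
  have h1 := P218.abs_integral_sub_le (μ := μ) hfc hgc hf hg hd hM
    (C := (A * ρ ^ 2).toNNReal) (h 0 ρ hρ)
  rwa [Real.coe_toNNReal _ (by positivity)] at h1

lemma div_mul_le {ε B : ℝ} (hε : 0 < ε) (hB : 0 ≤ B) : ε / (B + 1) * B ≤ ε := by
  rw [div_mul_eq_mul_div, div_le_iff₀ (by positivity)]
  nlinarith

/-- uniform convergence for equicontinuous families of test functions -/
theorem unif_family (hμ : ∀ᶠ i in atTop, AR (μ i) A) (hν : AR ν A) (hw : WeakTendsto μ ν)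
    {ι : Type*} (F : ι → E3 → ℝ) {ρ M : ℝ} (hρ : 0 < ρ) (hc : ∀ j, Continuous (F j))
    (hs : ∀ j x, ρ < ‖x‖ → F j x = 0) (hb : ∀ j x, ‖x‖ ≤ ρ → |F j x| ≤ M)
    (he : ∀ δ > 0, ∃ η > 0, ∀ j x y, ‖x‖ ≤ ρ → ‖y‖ ≤ ρ → dist x y < η → |F j x - F j y| ≤ δ)
    {ε : ℝ} (hε : 0 < ε) :
    ∀ᶠ i in atTop, ∀ j, |∫ x, F j x ∂(μ i) - ∫ x, F j x ∂ν| ≤ ε := by
  classical
  set B := max A 0 * ρ ^ 2 with hB
  have hB0 : 0 ≤ B := by positivity
  set δ := ε / 9 / (B + 1) with hδ
  have hδ0 : 0 < δ := by positivity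
  obtain ⟨η, hη, he⟩ := he δ hδ0
  obtain ⟨T, hTs, hTf, hT⟩ := finite_cover_balls_of_compact (isCompact_closedBall (0 : E3) ρ) hη
  have := hTf.to_subtype
  set code : ι → T → ℤ := fun j z => ⌊F j z / δ⌋ with hcode
  have hfin : (range code).Finite := by
    refine (Set.Finite.pi' (fun _ : T => finite_Icc ⌊-M / δ⌋ ⌊M / δ⌋)).subset ?_
    rintro _ ⟨j, rfl⟩ z
    have h1 := abs_le.1 (hb j z (mem_closedBall_zero_iff.1 (hTs z.2)))
    exact ⟨Int.floor_mono (div_le_div_of_nonneg_right h1.1 hδ0.le),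
      Int.floor_mono (div_le_div_of_nonneg_right h1.2 hδ0.le)⟩
  have hrep : ∀ c ∈ range code, ∃ j₀, code j₀ = c ∧
      ∀ᶠ i in atTop, |∫ x, F j₀ x ∂(μ i) - ∫ x, F j₀ x ∂ν| ≤ ε / 3 := by
    rintro _ ⟨j, rfl⟩
    refine ⟨j, rfl, ?_⟩
    have h1 := Metric.tendsto_nhds.1 (hw (F j) (hc j) (hcs (hs j))) (ε / 3) (by positivity)
    exact h1.mono fun i hi => by rw [Real.dist_eq] at hi; exact hi.le
  choose rep hrep1 hrep2 using hrep
  have := hfin.to_subtype
  filter_upwards [hμ, (eventually_all (ι := range code)).2 fun c => hrep2 c c.2] with i hi h2 j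
  have hj : code j ∈ range code := mem_range_self j
  set j₀ := rep (code j) hj
  have hd : ∀ x, ‖x‖ ≤ ρ → |F j x - F j₀ x| ≤ 3 * δ := by
    intro x hx
    obtain ⟨z, hz, hxz⟩ := mem_iUnion₂.1 (hT (mem_closedBall_zero_iff.2 hx))
    have hz' := mem_closedBall_zero_iff.1 (hTs hz)
    have h3 := he j x z hx hz' hxz
    have h4 := he j₀ x z hx hz' hxz
    have h5 : ⌊F j₀ z / δ⌋ = ⌊F j z / δ⌋ := congrFun (hrep1 _ hj) ⟨z, hz⟩
    have h6 := Int.abs_sub_lt_one_of_floor_eq_floor h5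
    rw [← sub_div, abs_div, abs_of_pos hδ0, div_lt_one hδ0] at h6
    rw [abs_le] at h3 h4 ⊢
    rw [abs_lt] at h6
    constructor <;> linarith [h3.1, h3.2, h4.1, h4.2, h6.1, h6.2]
  have h7 := close (AR_max hi) (le_max_right _ _) hρ (hc j) (hc j₀) (hs j) (hs j₀)
    (by positivity) hd
  have h8 := close (AR_max hν) (le_max_right _ _) hρ (hc j) (hc j₀) (hs j) (hs j₀)
    (by positivity) hd
  have h9 : |∫ x, F j₀ x ∂(μ i) - ∫ x, F j₀ x ∂ν| ≤ ε / 3 := h2 ⟨_, hj⟩
  have h10 : 3 * δ * B ≤ ε / 3 := by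
    have := div_mul_le (show 0 < ε / 9 by positivity) hB0
    linarith
  rw [abs_le] at h7 h8 h9 ⊢
  constructor <;> linarith [h7.1, h7.2, h8.1, h8.2, h9.1, h9.2]

/-- uniform convergence for compact families of test functions -/
theorem unif_compact (hμ : ∀ᶠ i in atTop, AR (μ i) A) (hν : AR ν A) (hw : WeakTendsto μ ν)
    {P : Type*} [PseudoMetricSpace P] {K : Set P} (hK : IsCompact K) (F : P → E3 → ℝ) {ρ : ℝ}
    (hρ : 0 < ρ) (hc : ContinuousOn (fun q : P × E3 => F q.1 q.2) (K ×ˢ univ))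
    (hs : ∀ p ∈ K, ∀ x, ρ < ‖x‖ → F p x = 0) {ε : ℝ} (hε : 0 < ε) :
    ∀ᶠ i in atTop, ∀ p ∈ K, |∫ x, F p x ∂(μ i) - ∫ x, F p x ∂ν| ≤ ε := by
  have hK' := hK.prod (isCompact_closedBall (0 : E3) ρ)
  have hc' := hc.mono (prod_mono Subset.rfl (subset_univ (closedBall (0 : E3) ρ)))
  obtain ⟨M, hM⟩ := hK'.exists_bound_of_continuousOn hc'
  have hu := Metric.uniformContinuousOn_iff.1 (hK'.uniformContinuousOn_of_continuous hc')
  have h1 := unif_family hμ hν hw (fun p : K => F p) (M := M) hρ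
    (fun p => hc.comp_continuous (continuous_const.prodMk continuous_id) fun x =>
      ⟨p.2, mem_univ _⟩) (fun p => hs p p.2)
    (fun p x hx => hM (p, x) ⟨p.2, mem_closedBall_zero_iff.2 hx⟩) (fun δ hδ => ?_) hε
  · exact h1.mono fun i hi p hp => hi ⟨p, hp⟩
  · obtain ⟨η, hη, h⟩ := hu δ hδ
    refine ⟨η, hη, fun p x y hx hy hxy => ?_⟩
    have := h (p, x) ⟨p.2, mem_closedBall_zero_iff.2 hx⟩ (p, y)
      ⟨p.2, mem_closedBall_zero_iff.2 hy⟩ (by simpa [Prod.dist_eq] using hxy)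
    rw [Real.dist_eq] at this
    exact this.le

theorem near_lim (hμ : ∀ᶠ i in atTop, AR (μ i) A) (hν : AR ν A) (hw : WeakTendsto μ ν)
    (R r₁ r₂ L ε : ℝ) (hr₁ : 0 < r₁) (hε : 0 < ε) : ∀ᶠ i in atTop, ∀ x : E3,
      ‖x‖ ≤ R → ∀ r ∈ Icc r₁ r₂, ∀ φ, IsTest L φ →
        |(∫ y, φ (r⁻¹ • (y - x)) ∂(μ i)) / r ^ 2 - (∫ y, φ (r⁻¹ • (y - x)) ∂ν) / r ^ 2| ≤ ε := by
  have h1 := unif_family hμ hν hw
    (ι := {q : E3 × ℝ × (E3 → ℝ) // ‖q.1‖ ≤ R ∧ q.2.1 ∈ Icc r₁ r₂ ∧ IsTest L q.2.2})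
    (fun q y => q.1.2.2 (q.1.2.1⁻¹ • (y - q.1.1))) (ρ := |R| + |L| * |r₂| + 1) (M := 1)
    (by positivity) (fun q => q.2.2.2.smooth.continuous.comp (by fun_prop)) ?_
    (fun q y _ => q.2.2.2.le_one _) ?_ (show 0 < ε * r₁ ^ 2 by positivity)
  · filter_upwards [h1] with i hi x hx r hr φ hφ
    have h2 := hi ⟨(x, r, φ), hx, hr, hφ⟩
    have hr0 : 0 < r := hr₁.trans_le hr.1
    rw [← sub_div, abs_div, abs_of_pos (by positivity : 0 < r ^ 2), div_le_iff₀ (by positivity)]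
    exact h2.trans (mul_le_mul_of_nonneg_left (pow_le_pow_left₀ hr₁.le hr.1 2) hε.le)
  · rintro ⟨⟨x, r, φ⟩, hx, hr, hφ⟩ y hy
    refine hφ.supp _ ?_
    simp only at hx hr ⊢
    have hr0 : 0 < r := hr₁.trans_le hr.1
    rw [norm_smul, norm_inv, Real.norm_eq_abs, abs_of_pos hr0, le_inv_mul_iff₀ hr0]
    have h2 := norm_sub_norm_le y x
    have h3 : r * L ≤ |L| * |r₂| := by
      rw [mul_comm]
      exact (mul_le_mul_of_nonneg_right (le_abs_self L) hr0.le).trans
        (mul_le_mul_of_nonneg_left (hr.2.trans (le_abs_self _)) (abs_nonneg _))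
    linarith [le_abs_self R]
  · intro δ hδ
    refine ⟨δ * r₁, by positivity, ?_⟩
    rintro ⟨⟨x, r, φ⟩, hx, hr, hφ⟩ y z - - hyz
    simp only at hx hr ⊢
    have hr0 : 0 < r := hr₁.trans_le hr.1
    have h2 := convex_univ.norm_image_sub_le_of_norm_fderiv_le (𝕜 := ℝ) (f := φ) (C := 1)
      (fun x _ => hφ.smooth.differentiable one_ne_zero x) (fun x _ => hφ.deriv_le x)
      (mem_univ (r⁻¹ • (z - x))) (mem_univ (r⁻¹ • (y - x)))
    rw [← smul_sub, sub_sub_sub_cancel_right, norm_smul, norm_inv, Real.norm_eq_abs,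
      Real.norm_eq_abs, abs_of_pos hr0, one_mul, ← dist_eq_norm] at h2
    refine h2.trans ?_
    rw [inv_mul_le_iff₀ hr0]
    nlinarith [hr.1]

lemma isTest_kk : IsTest 1 fun z => kk z / 8 where
  smooth := (P218UM.contDiff_kk.of_le (by norm_num)).div_const 8
  supp x hx := by rw [P218UM.kk_eq_zero hx, zero_div]
  le_one x := by
    rw [abs_of_nonneg (div_nonneg (P218UM.kk_nonneg x) (by norm_num))]
    linarith [P218UM.kk_le x, P218UM.four_div_pi_le]
  deriv_le x := by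
    have h := (P218UM.contDiff_kk.differentiable (by norm_num) x).hasFDerivAt.const_mul (1 / 8)
    have e : (fun z => kk z / 8) = fun z => 1 / 8 * kk z := by
      ext z
      ring
    rw [e, h.fderiv, norm_smul]
    have := P218UM.norm_fderiv_kk_le x
    norm_num
    linarith

theorem mk_lim (hμ : ∀ᶠ i in atTop, AR (μ i) A) (hν : AR ν A) (hw : WeakTendsto μ ν)
    (R r₁ r₂ ε : ℝ) (hr₁ : 0 < r₁) (hε : 0 < ε) : ∀ᶠ i in atTop, ∀ x : E3, ‖x‖ ≤ R →
      ∀ r ∈ Icc r₁ r₂, |mk (μ i) x r - mk ν x r| ≤ ε := by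
  filter_upwards [near_lim hμ hν hw R r₁ r₂ 1 (ε / 8) hr₁ (by positivity)] with i hi x hx r hr
  have h1 := hi x hx r hr _ isTest_kk
  simp only [integral_div] at h1
  rw [P218UA.mk, P218UA.mk]
  rw [abs_le] at h1 ⊢
  have e : ∀ a : ℝ, a / 8 / r ^ 2 = a / r ^ 2 / 8 := fun a => by ring
  rw [e, e] at h1
  constructor <;> linarith [h1.1, h1.2]

/-- a continuous cutoff -/
noncomputable def cut (ρ : ℝ) (y : E3) : ℝ := max (min (ρ + 1 - ‖y‖) 1) 0

lemma continuous_cut (ρ : ℝ) : Continuous (cut ρ) := by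
  unfold cut
  fun_prop

lemma cut_nonneg (ρ : ℝ) (y : E3) : 0 ≤ cut ρ y := le_max_right _ _

lemma cut_le (ρ : ℝ) (y : E3) : cut ρ y ≤ 1 := max_le (min_le_right _ _) zero_le_one

lemma cut_one {ρ : ℝ} {y : E3} (h : ‖y‖ ≤ ρ) : cut ρ y = 1 := by
  rw [cut, min_eq_right (by linarith), max_eq_left zero_le_one]

lemma cut_zero {ρ : ℝ} {y : E3} (h : ρ + 1 < ‖y‖) : cut ρ y = 0 :=
  max_eq_right ((min_le_left _ _).trans (by linarith))

lemma gauss_le (a : ℝ) {r : ℝ} (hr : 0 < r) :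
    Real.exp (-a ^ 2 / (4 * r ^ 2)) ≤ Real.exp (-a ^ 2 / (8 * r ^ 2)) := by
  refine Real.exp_le_exp.2 ?_
  rw [neg_div, neg_div, neg_le_neg_iff]
  exact div_le_div_of_nonneg_left (sq_nonneg a) (by positivity) (by nlinarith [sq_nonneg r])

lemma integrable_gauss (hM : Mono) {μ : Measure E3} (h : AR μ A) (x : E3) {r : ℝ} (hr : 0 < r) :
    Integrable (fun y => Real.exp (-‖y - x‖ ^ 2 / (4 * r ^ 2))) μ := by
  obtain ⟨C, hC⟩ := hM.tail
  refine (hC μ _ (le_max_right _ _) (AR_max h) x r hr).1.mono' (by fun_prop)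
    (Eventually.of_forall fun y => ?_)
  rw [Real.norm_eq_abs, abs_of_pos (Real.exp_pos _)]
  exact gauss_le _ hr

/-- the tails of the Gaussian density ratios -/
lemma gd_tail (hM : Mono) (A R r₂ : ℝ) {ε : ℝ} (hε : 0 < ε) : ∃ ρ > 0, ∀ μ : Measure E3, AR μ A →
    ∀ x : E3, ‖x‖ ≤ R → ∀ r, 0 < r → r ≤ r₂ →
      |gd μ x r - ∫ y, Real.exp (-‖y - x‖ ^ 2 / (4 * r ^ 2)) / (4 * Real.pi * r ^ 2) * cut ρ y ∂μ|
        ≤ ε := by
  obtain ⟨C, hC⟩ := hM.tail
  set B := |C| * max A 0 with hB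
  have hB0 : 0 ≤ B := by positivity
  have h1 : Tendsto (fun u : ℝ => Real.exp (-u ^ 2 / (8 * (|r₂| + 1) ^ 2))) atTop (𝓝 0) := by
    refine Real.tendsto_exp_atBot.comp (Tendsto.atBot_div_const (by positivity) ?_)
    exact tendsto_neg_atTop_atBot.comp (tendsto_pow_atTop two_ne_zero)
  obtain ⟨u, hu1, hu0⟩ := ((h1.eventually (gt_mem_nhds
    (show 0 < ε / (B + 1) by positivity))).and (eventually_gt_atTop 0)).exists
  refine ⟨|R| + u, by positivity, fun μ hμ x hx r hr hr2 => ?_⟩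
  obtain ⟨h2, h3⟩ := hC μ _ (le_max_right _ _) (AR_max hμ) x r hr
  have h4 := integrable_gauss hM hμ x hr
  have hp := Real.pi_gt_three
  have h5 : Integrable (fun y => Real.exp (-‖y - x‖ ^ 2 / (4 * r ^ 2)) / (4 * Real.pi * r ^ 2)
      * cut (|R| + u) y) μ :=
    (h4.div_const _).mul_bdd (c := 1) (continuous_cut _).aestronglyMeasurable
      (Eventually.of_forall fun y => by
        rw [Real.norm_eq_abs, abs_of_nonneg (cut_nonneg _ _)]
        exact cut_le _ _)
  rw [gd, ← integral_div, ← integral_sub (h4.div_const _) h5, ← Real.norm_eq_abs]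
  refine (norm_integral_le_of_norm_le ((h2.const_mul (ε / (B + 1) / r ^ 2)))
    (Eventually.of_forall fun y => ?_)).trans ?_
  · rw [← mul_one_sub, Real.norm_eq_abs, abs_of_nonneg (mul_nonneg (by positivity)
      (sub_nonneg.2 (cut_le _ _)))]
    by_cases hy : ‖y‖ ≤ |R| + u
    · rw [cut_one hy, sub_self, mul_zero]
      positivity
    · have h6 : u ≤ ‖y - x‖ := by linarith [norm_sub_norm_le y x, le_abs_self R, not_le.1 hy]
      have h7 : Real.exp (-‖y - x‖ ^ 2 / (8 * r ^ 2)) ≤ ε / (B + 1) := by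
        refine le_trans (Real.exp_le_exp.2 ?_) hu1.le
        rw [neg_div, neg_div, neg_le_neg_iff]
        refine div_le_div₀ (sq_nonneg _) (pow_le_pow_left₀ hu0.le h6 2) (by positivity) ?_
        have := pow_le_pow_left₀ hr.le (show r ≤ |r₂| + 1 by linarith [le_abs_self r₂]) 2
        linarith
      have h8 : Real.exp (-‖y - x‖ ^ 2 / (4 * r ^ 2))
          = Real.exp (-‖y - x‖ ^ 2 / (8 * r ^ 2)) * Real.exp (-‖y - x‖ ^ 2 / (8 * r ^ 2)) := by
        rw [← Real.exp_add]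
        congr 1
        ring
      have h9 := cut_nonneg (|R| + u) y
      calc Real.exp (-‖y - x‖ ^ 2 / (4 * r ^ 2)) / (4 * Real.pi * r ^ 2) * (1 - cut (|R| + u) y)
          ≤ Real.exp (-‖y - x‖ ^ 2 / (4 * r ^ 2)) / (1 * r ^ 2) * 1 := by
            gcongr
            · linarith [cut_le (|R| + u) y]
            · linarith
            · linarith
        _ = Real.exp (-‖y - x‖ ^ 2 / (8 * r ^ 2)) / r ^ 2
            * Real.exp (-‖y - x‖ ^ 2 / (8 * r ^ 2)) := by
            rw [h8]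
            ring
        _ ≤ _ := by gcongr
  · rw [integral_const_mul]
    have h6 : C * max A 0 * r ^ 2 ≤ B * r ^ 2 := by
      rw [hB]
      gcongr
      exact le_abs_self C
    calc ε / (B + 1) / r ^ 2 * ∫ y, Real.exp (-‖y - x‖ ^ 2 / (8 * r ^ 2)) ∂μ
        ≤ ε / (B + 1) / r ^ 2 * (B * r ^ 2) :=
          mul_le_mul_of_nonneg_left (h3.trans h6) (by positivity)
      _ = ε / (B + 1) * B := by field_simp
      _ ≤ ε := div_mul_le hε hB0

theorem gd_lim (hM : Mono) (hμ : ∀ᶠ i in atTop, AR (μ i) A) (hν : AR ν A) (hw : WeakTendsto μ ν)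
    (R r₁ r₂ ε : ℝ) (hr₁ : 0 < r₁) (hε : 0 < ε) : ∀ᶠ i in atTop, ∀ x : E3, ‖x‖ ≤ R →
      ∀ r ∈ Icc r₁ r₂, |gd (μ i) x r - gd ν x r| ≤ ε := by
  obtain ⟨ρ, hρ, h1⟩ := gd_tail hM A R r₂ (show 0 < ε / 3 by positivity)
  have h2 := unif_compact hμ hν hw
    ((isCompact_closedBall (0 : E3) R).prod (isCompact_Icc (a := r₁) (b := r₂)))
    (fun p y => Real.exp (-‖y - p.1‖ ^ 2 / (4 * p.2 ^ 2)) / (4 * Real.pi * p.2 ^ 2) * cut ρ y)
    (ρ := ρ + 1) (by positivity) ?_ (fun p _ y hy => by rw [cut_zero hy, mul_zero])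
    (show 0 < ε / 3 by positivity)
  · filter_upwards [h2, hμ] with i hi hAi x hx r hr
    have hr0 : 0 < r := hr₁.trans_le hr.1
    have h3 := hi (x, r) ⟨mem_closedBall_zero_iff.2 hx, hr⟩
    have h4 := h1 _ hAi x hx r hr0 hr.2
    have h5 := h1 _ hν x hx r hr0 hr.2
    rw [abs_le] at h3 h4 h5 ⊢
    constructor <;> linarith [h3.1, h3.2, h4.1, h4.2, h5.1, h5.2]
  · have hp := Real.pi_pos
    have h0 : ∀ q ∈ (closedBall (0 : E3) R ×ˢ Icc r₁ r₂) ×ˢ (univ : Set E3), 0 < q.1.2 :=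
      fun q hq => hr₁.trans_le hq.1.2.1
    refine ContinuousOn.mul (ContinuousOn.div (ContinuousOn.rexp (ContinuousOn.div (by fun_prop)
      (by fun_prop) fun q hq => ?_)) (by fun_prop) fun q hq => ?_)
      ((continuous_cut ρ).comp continuous_snd).continuousOn
    · have := h0 q hq
      positivity
    · have := h0 q hq
      positivity

/-- area ratio bounds pass to the limit -/
theorem AR_lim (hμ : ∀ᶠ i in atTop, AR (μ i) A) [IsLocallyFiniteMeasure ν]
    (hw : WeakTendsto μ ν) : AR ν A := by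
  intro x r hr
  have key : ∀ r' > r, ν (closedBall x r) ≤ ENNReal.ofReal (A * r' ^ 2) := by
    intro r' hr'
    obtain ⟨f, hf1, hf0, hfc, hf⟩ := exists_continuous_one_zero_of_isCompact
      (isCompact_closedBall x r) (isOpen_ball (x := x) (ε := r')).isClosed_compl
      (disjoint_compl_right_iff_subset.2 (closedBall_subset_ball hr'))
    have h1 := hw f f.continuous hfc
    have h2 : ∀ᶠ i in atTop, ∫ y, f y ∂(μ i) ≤ (ENNReal.ofReal (A * r' ^ 2)).toReal := by
      filter_upwards [hμ] with i hi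
      have := hi.locFin
      have h3 : ∫ y, f y ∂(μ i) ≤ ∫ y, (closedBall x r').indicator (fun _ => (1 : ℝ)) y ∂(μ i) := by
        refine integral_mono (f.continuous.integrable_of_hasCompactSupport hfc)
          ((integrable_indicator_iff measurableSet_closedBall).2
            (integrableOn_const (isCompact_closedBall x r').measure_lt_top.ne)) fun y => ?_
        by_cases hy : y ∈ closedBall x r'
        · rw [indicator_of_mem hy]
          exact (hf y).2
        · rw [indicator_of_notMem hy]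
          exact (hf0 fun h => hy (ball_subset_closedBall h)).le
      rw [integral_indicator measurableSet_closedBall, setIntegral_const, smul_eq_mul,
        mul_one] at h3
      exact h3.trans (ENNReal.toReal_mono ENNReal.ofReal_ne_top (hi x r' (hr.trans hr')))
    have h3 := le_of_tendsto h1 h2
    have h4 : ν.real (closedBall x r) ≤ ∫ y, f y ∂ν := by
      have h5 : ∫ y, (closedBall x r).indicator (fun _ => (1 : ℝ)) y ∂ν ≤ ∫ y, f y ∂ν := by
        refine integral_mono ((integrable_indicator_iff measurableSet_closedBall).2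
            (integrableOn_const (isCompact_closedBall x r).measure_lt_top.ne))
          (f.continuous.integrable_of_hasCompactSupport hfc) fun y => ?_
        by_cases hy : y ∈ closedBall x r
        · rw [indicator_of_mem hy]
          exact (hf1 hy).ge
        · rw [indicator_of_notMem hy]
          exact (hf y).1
      rwa [integral_indicator measurableSet_closedBall, setIntegral_const, smul_eq_mul,
        mul_one] at h5
    exact (ENNReal.toReal_le_toReal (isCompact_closedBall x r).measure_lt_top.ne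
      ENNReal.ofReal_ne_top).1 (h4.trans h3)
  have h6 : Tendsto (fun r' : ℝ => ENNReal.ofReal (A * r' ^ 2)) (𝓝[>] r)
      (𝓝 (ENNReal.ofReal (A * r ^ 2))) :=
    (ENNReal.continuous_ofReal.tendsto _).comp
      (((continuous_const.mul (continuous_pow 2)).tendsto r).mono_left nhdsWithin_le_nhds)
  exact ge_of_tendsto h6 (eventually_mem_nhdsWithin.mono key)

/-- compactness -/
theorem exists_subseq (hμ : ∀ i, AR (μ i) A) :
    ∃ (φ : ℕ → ℕ) (ν : Measure E3), StrictMono φ ∧ IsLocallyFiniteMeasure ν ∧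
      WeakTendsto (fun i => μ (φ i)) ν := by
  have hb : P218.LocBdd μ := by
    intro K hK
    obtain ⟨R, hR, hK'⟩ := hK.isBounded.subset_closedBall_lt 0 0
    exact ⟨(A * R ^ 2).toNNReal, fun i => (measure_mono hK').trans (hμ i 0 R hR)⟩
  choose B hB using hb.fnl_bdd
  obtain ⟨l, hl⟩ := P218.cluster_nonempty (isCompact_univ_pi fun φ => isCompact_Icc
    (a := -B φ) (b := B φ)) (fun i => P218.fnl (μ i)) fun i φ _ => abs_le.1 (hB φ i)
  obtain ⟨ν, hν, rfl⟩ := P218.exists_measure_of_cluster hb hl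
  obtain ⟨ψ, hψ, h⟩ := hb.exists_subseq_of_cluster hl
  exact ⟨ψ, ν, hψ, hν, h⟩

/-- it suffices to test with smooth functions -/
theorem weak_of_smooth {μ' : ℕ → Measure E3} (hμ : ∀ᶠ i in atTop, AR (μ i) A)
    (hμ' : ∀ᶠ i in atTop, AR (μ' i) A) (hw : WeakTendsto μ' ν)
    (h : ∀ φ : E3 → ℝ, ContDiff ℝ 1 φ → HasCompactSupport φ →
      Tendsto (fun i => ∫ x, φ x ∂(μ i) - ∫ x, φ x ∂(μ' i)) atTop (𝓝 0)) : WeakTendsto μ ν := by
  intro f hf hfc
  obtain ⟨ρ, hρ, hfs⟩ := exists_rad hfc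
  have h1 : Tendsto (fun i => ∫ x, f x ∂(μ i) - ∫ x, f x ∂(μ' i)) atTop (𝓝 0) := by
    refine P218.tendsto_of_approx fun ε hε => ?_
    set B := max A 0 * ρ ^ 2 with hB
    have hB0 : 0 ≤ B := by positivity
    obtain ⟨g, hg1, hg2, hg3⟩ := hf.exists_contDiff_approx 1 (ε := fun _ => ε / 2 / (B + 1))
      continuous_const fun _ => by positivity
    have hgs : ∀ x, ρ < ‖x‖ → g x = 0 := fun x hx => by
      by_contra h0
      exact hg3 h0 (hfs x hx)
    have hd : ∀ x, ‖x‖ ≤ ρ → |f x - g x| ≤ ε / 2 / (B + 1) := fun x _ => by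
      rw [abs_sub_comm, ← Real.dist_eq]
      exact (hg2 x).le
    refine ⟨_, 0, h g hg1 (hcs hgs), ?_, by simpa using hε.le⟩
    filter_upwards [hμ, hμ'] with i h2 h3
    have h4 := close (AR_max h2) (le_max_right _ _) hρ hf hg1.continuous hfs hgs
      (by positivity) hd
    have h5 := close (AR_max h3) (le_max_right _ _) hρ hf hg1.continuous hfs hgs
      (by positivity) hd
    have h6 := div_mul_le (half_pos hε) hB0
    rw [abs_le] at h4 h5 ⊢
    constructor <;> linarith [h4.1, h4.2, h5.1, h5.2]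
  simpa using h1.add (hw f hf hfc)

/-- dilations by convergent factors -/
theorem weak_scal (hμ : ∀ᶠ i in atTop, AR (μ i) A) (hν : AR ν A) (hw : WeakTendsto μ ν)
    {c : ℕ → ℝ} {c' : ℝ} (hc' : 0 < c') (hc : Tendsto c atTop (𝓝 c')) :
    WeakTendsto (fun i => scal (μ i) (c i)) (scal ν c') := by
  intro f hf hfc
  obtain ⟨ρ, hρ, hfs⟩ := exists_rad hfc
  have hI : ∀ᶠ i in atTop, c i ∈ Icc (c' / 2) (2 * c') :=
    hc.eventually (Icc_mem_nhds (by linarith) (by linarith))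
  have hs : ∀ a ∈ Icc (c' / 2) (2 * c'), ∀ x : E3, 2 * ρ / c' < ‖x‖ → f (a • x) = 0 := by
    intro a ha x hx
    refine hfs _ ?_
    have ha0 : 0 < a := lt_of_lt_of_le (by positivity) ha.1
    rw [norm_smul, Real.norm_eq_abs, abs_of_pos ha0]
    rw [div_lt_iff₀ hc'] at hx
    nlinarith [ha.1, norm_nonneg x]
  have := hν.locFin
  have h1 : Tendsto (fun i => ∫ x, f (c i • x) ∂ν) atTop (𝓝 (∫ x, f (c' • x) ∂ν)) := by
    have h2 : ContinuousOn (fun a : ℝ => ∫ x, f (a • x) ∂ν) (Icc (c' / 2) (2 * c')) :=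
      continuousOn_integral_of_compact_support (isCompact_closedBall 0 (2 * ρ / c'))
        (by fun_prop) fun a x ha hx => hs a ha x (by simpa using hx)
    exact ((h2.continuousAt (Icc_mem_nhds (by linarith) (by linarith))).tendsto).comp hc
  have h3 : Tendsto (fun i => ∫ x, f (c i • x) ∂(μ i) - ∫ x, f (c i • x) ∂ν) atTop (𝓝 0) := by
    rw [Metric.tendsto_nhds]
    intro ε hε
    filter_upwards [hI, unif_compact hμ hν hw isCompact_Icc (fun a x => f (a • x))
      (ρ := 2 * ρ / c') (by positivity) (by fun_prop) hs (half_pos hε)] with i h4 h5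
    rw [Real.dist_eq, sub_zero]
    linarith [h5 _ h4]
  have h4 := (hc.pow 2).mul (h3.add h1)
  rw [zero_add, ← P218UD.integral_scal hc'] at h4
  refine h4.congr' ?_
  filter_upwards [hI] with i hi
  rw [P218UD.integral_scal (lt_of_lt_of_le (by positivity) hi.1), sub_add_cancel]

end Vale.Agent.P218UU
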